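import Vale.Agent.P319.SC.H232.Final
import Vale.Agent.P319.SC.H232.Mach23
import Vale.Agent.P319.SC.QL.H232.NR3

namespace Vale.Agent.Results.P319.PolyTimeTwoThirds

open Polynomial Vale.Agent.P319.TM

/-- Unconditional deterministic factorization over prime fields by ONE Turing machine `M` (Mathlib's
machines `Turing.FinTM2` with finitely many stacks; here all stack alphabets are finite). No
padding, no failure symbol, no oracle.

`Factors M f t`: the machine `M`, started on the binary code of `(p, f)`, halts within `t` steps and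
its output is the complete factorization of `f`. `f` is called `s`-bounded if `f` has at most `s`
different monic irreducible factors of degree `d`, for every `d` (every `f` of degree `n ≥ 1` is
`n`-bounded). Let `L = Nat.size p` be the bit length of `p`, and
`q(s) = s ^ ⌈(log₂ s) ^ (2 / 3)⌉` (the classical bound of Evdokimov, known under GRH only, has the
exponent `log₂ s` instead of `(log₂ s) ^ (2 / 3)`).

(1) For every `K` there is `C` such that for every `R` there is `D` such that for EVERY prime `p`,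
EVERY `s ≥ 1`, EVERY nonzero `s`-bounded `f` and every `Q ≥ q(s) * L`, `M` factors `f` completely in
time `D * ((deg f + 1) * Q) ^ C`, if every prime `r`, `R < r ≤ s`, satisfies one of the conditions
`p ≡ ± 1` modulo `r`, `p ^ (r - 1) ≠ 1` modulo `r ^ 2`, `p` is not an `r`-th power modulo some prime
`l ≡ 1` modulo `r`, `l ≠ p`, `l ≤ Q ^ K`.

(2) For every `ε > 0` there are a constant `C` and a set `E` with at most `C * X ^ (1 / 2 + ε)`
elements up to `X`, for all `X`, such that for EVERY prime `p` outside `E`, EVERY `s ≥ 1` and EVERY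
nonzero `s`-bounded `f`, `M` factors `f` completely in time `(q(s) * (deg f + 1) * L) ^ C`.

(3) There is a constant `C` such that for all `k ≥ 1`, `s ≥ 1` and `n` there are a bound `b p` for
the time in which `M` factors all nonzero `s`-bounded `f` of degree at most `n` over the field with
`p` elements, for every prime `p`, and a constant `K`, such that the sum of the `k`-th powers of
`b p` for all primes up to `X` is at most `π(X) * (q(s) * (n + 1) * size X) ^ (C * k) + K`. -/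
theorem result : ∃ M : Turing.TM2ComputableAux Bool Bool, (∀ k, Finite (M.tm.Γ k)) ∧
    (∀ K : ℕ, ∃ C : ℕ, ∀ R : ℕ, ∃ D : ℕ, ∀ p : ℕ, p.Prime → ∀ f : (ZMod p)[X], f ≠ 0 →
      ∀ s : ℕ, 1 ≤ s →
      (∀ (d : ℕ) (S : Finset (ZMod p)[X]),
        (∀ P ∈ S, P.Monic ∧ Irreducible P ∧ P.natDegree = d ∧ P ∣ f) → S.card ≤ s) →
      ∀ Q : ℕ, s ^ ⌈(Real.logb 2 s) ^ (2 / 3 : ℝ)⌉₊ * Nat.size p ≤ Q →
      (∀ r : ℕ, r.Prime → R < r → r ≤ s →
        (p % r = 1 ∨ p % r = r - 1 ∨ ¬ r ^ 2 ∣ p ^ (r - 1) - 1 ∨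
          ∃ l : ℕ, l.Prime ∧ l ≤ Q ^ K ∧ l % r = 1 ∧ p % l ≠ 0 ∧ p ^ ((l - 1) / r) % l ≠ 1)) →
      Factors M f (D * ((f.natDegree + 1) * Q) ^ C)) ∧
    (∀ ε : ℝ, 0 < ε → ∃ (C : ℕ) (E : Set ℕ),
      (∀ X : ℕ, ((E ∩ Set.Iic X).ncard : ℝ) ≤ C * (X : ℝ) ^ (1 / 2 + ε)) ∧
      ∀ p : ℕ, p.Prime → p ∉ E → ∀ f : (ZMod p)[X], f ≠ 0 → ∀ s : ℕ, 1 ≤ s →
        (∀ (d : ℕ) (S : Finset (ZMod p)[X]),
          (∀ P ∈ S, P.Monic ∧ Irreducible P ∧ P.natDegree = d ∧ P ∣ f) → S.card ≤ s) →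
        Factors M f ((s ^ ⌈(Real.logb 2 s) ^ (2 / 3 : ℝ)⌉₊ *
          ((f.natDegree + 1) * Nat.size p)) ^ C)) ∧
    (∃ C : ℕ, ∀ k s n : ℕ, 1 ≤ k → 1 ≤ s → ∃ (b : ℕ → ℕ) (K : ℕ),
      (∀ p : ℕ, p.Prime → ∀ f : (ZMod p)[X], f ≠ 0 → f.natDegree ≤ n →
        (∀ (d : ℕ) (S : Finset (ZMod p)[X]),
          (∀ P ∈ S, P.Monic ∧ Irreducible P ∧ P.natDegree = d ∧ P ∣ f) → S.card ≤ s) →
        Factors M f (b p)) ∧
      ∀ X : ℕ, ∑ p ∈ (Finset.range (X + 1)).filter Nat.Prime, (b p) ^ k ≤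
        Nat.primeCounting X * (s ^ ⌈(Real.logb 2 s) ^ (2 / 3 : ℝ)⌉₊ *
          ((n + 1) * Nat.size X)) ^ (C * k) + K) := by
  obtain ⟨C₀, hC₀⟩ := Vale.Agent.P319.SC.H232.machE23
  exact Vale.Agent.P319.SC.H232.turing23 Vale.Agent.P319.SC.QL3.nr2' (hC₀ _)

end Vale.Agent.Results.P319.PolyTimeTwoThirds
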